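import Vale.Agent.P050.H222.G

/-!
P050: the Moebius ladder minus a rung: densities (helper222).
-/

set_option linter.unusedSectionVars false

namespace Vale.Agent.P050.H222

open Finset Vale.Agent.P050.Cart Vale.Agent.P050.Join Vale.Agent.P050.H148 Vale.Agent.P050.H180
open Vale.Agent.P050.M18 Vale.Agent.P050.H546

section ue

variable {X : Type} [Fintype X] (G : SimpleGraph X)

/-- the number of directed edges -/
noncomputable def de : ℝ := ∑ q : X × X, adj G q.1 q.2

/-- the uniform law on the directed edges -/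
noncomputable def ue (a : X × X) : ℝ := adj G a.1 a.2 / de G

variable (hG : ∃ x y, G.Adj x y)
include hG

theorem de_pos : 0 < de G := by
  obtain ⟨x, y, hxy⟩ := hG
  have h1 : adj G x y = 1 := by
    unfold adj
    rw [if_pos hxy]
  have h2 : adj G x y ≤ de G :=
    Finset.single_le_sum (f := fun q : X × X => adj G q.1 q.2)
      (fun b _ => M18.adj_nn G _ _) (mem_univ (x, y))
  linarith

theorem ue_edge : Edge (ue G) where
  nn := fun a => div_nonneg (M18.adj_nn G _ _) (de_pos G hG).le
  tot := by
    unfold ue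
    rw [← Finset.sum_div]
    exact div_self (de_pos G hG).ne'
  sym := fun x y => by
    unfold ue
    simp only
    rw [M18.adj_symm G x y]

omit hG in
theorem ue_ne {a : X × X} (h : ue G a ≠ 0) : adj G a.1 a.2 = 1 :=
  adj_one G (div_ne_zero_iff.1 h).1

omit hG in
theorem ue_four : Four (CG G) (ue G) where
  c0 := CG_nn G
  c1 := by
    intro s f f' s' h1 h2 h3 h4
    have a1 := ue_ne G h1
    have a2 := ue_ne G h2
    have a3 := ue_ne G h3
    have a4 := ue_ne G h4
    unfold CG
    simp only at a1 a2 a3 a4 ⊢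
    rw [a1, a2, a3, a4]
    norm_num

theorem ue_hQ : hQ (ue G) = Real.log (de G) := by
  have ht := de_pos G hG
  unfold hQ
  rw [ent_eq]
  have e1 : ∀ x, ue G x * Real.log (mar (ue G) (fun x => x) x) = - (ue G x * Real.log (de G)) := by
    intro x
    rw [mar_id]
    by_cases hx : ue G x = 0
    · rw [hx]; ring
    · have h1 := ue_ne G hx
      have h2 : ue G x = 1 / de G := by
        unfold ue
        rw [h1]
      rw [h2, Real.log_div one_ne_zero ht.ne', Real.log_one]
      ring
  rw [Finset.sum_congr rfl fun x _ => e1 x, Finset.sum_neg_distrib, neg_neg, ← Finset.sum_mul,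
    (ue_edge G hG).tot, one_mul]

theorem ue_aQ : aQ (ue G) ≤ Real.log (Fintype.card X) := by
  have hE := ue_edge G hG
  have key := ent_log_sum (P := ue G) hE.nn hE.tot (fun e => e.2) (fun _ => 1)
    (fun a => zero_le_one) (fun a ha => one_ne_zero)
  have h2 := key.2
  simp only [Real.log_one, mul_zero, Finset.sum_const_zero, add_zero, Finset.sum_const,
    Finset.card_univ, nsmul_eq_mul, mul_one] at h2
  rw [hE.ent_snd] at h2
  exact h2

end ue

/-- **the theorem, from the entropy side** -/
theorem final (he : EntStmt) : FinalStmt := by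
  intro X _ _ G k hk hk11
  classical
  rcases (edge_nn G).lt_or_eq with hp | hp
  swap
  · rw [← hp, zero_pow (by omega)]
    exact hom_nn G _
  obtain ⟨n, rfl⟩ : ∃ n, k = 2 * n + 7 := by
    obtain ⟨r, rfl⟩ := hk
    exact ⟨r - 3, by omega⟩
  have hn2 : 2 ≤ n := by omega
  have hG := exists_adj G hp
  have hn := card_pos' (X := X)
  obtain ⟨h1, h2⟩ := he X (CG G) (adj G) (ue G) (ue_edge G hG) (ue_four G)
    (M18.adj_nn G) (fun x y h => ue_ne G h) n hn2
  have h3 : nh (CG G) (adj G) n = homDensity (rungless (2 * n + 7)) G *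
      (Fintype.card X : ℝ) ^ (2 * (2 * n + 7)) := by
    rw [← nh_eq]
    exact (graph X G (2 * n + 5) ⟨n + 2, by ring⟩).symm
  rw [h3] at h1 h2
  have ht : 0 < homDensity (rungless (2 * n + 7)) G := by
    rcases (hom_nn G (rungless (2 * n + 7))).lt_or_eq with h | h
    · exact h
    · rw [← h, zero_mul] at h1
      exact absurd h1 (lt_irrefl _)
  have h4 := ue_aQ G hG
  have h5 : hQ (ue G) = Real.log (edgeDensity G) + 2 * Real.log (Fintype.card X) := by
    rw [ue_hQ G hG]
    unfold de
    rw [Fintype.sum_prod_type]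
    simp only
    rw [adj_sum', Real.log_mul hp.ne' (by positivity), Real.log_pow]
    push_cast
    ring
  rw [h5, Real.log_mul ht.ne' (by positivity), Real.log_pow] at h2
  push_cast at h2
  have h6 : (8 * (n : ℝ) + 26) * aQ (ue G) ≤ (8 * n + 26) * Real.log (Fintype.card X) :=
    mul_le_mul_of_nonneg_left h4 (by positivity)
  rw [← Real.log_le_log_iff (by positivity) ht, Real.log_pow]
  have h7 : ((3 * (2 * n + 7) - 1 : ℕ) : ℝ) = 6 * n + 20 := by
    rw [show 3 * (2 * n + 7) - 1 = 6 * n + 20 by omega]
    push_cast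
    ring
  rw [h7]
  linarith

end Vale.Agent.P050.H222
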