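import Vale.Agent.P050.H546.Spec

/-!
P050: the Moebius ladder minus a rung: number of homomorphisms (helper222).
-/

set_option linter.unusedSectionVars false

namespace Vale.Agent.P050.H222

open Finset Vale.Agent.P050.H148 Vale.Agent.P050.M18 Vale.Agent.P050.H546

section zp

variable {E : Type} [Fintype E] [DecidableEq E]

theorem zp_add (C : E → E → ℝ) (i j : ℕ) (a b : E) :
    zp C (i + j) a b = ∑ c, zp C i a c * zp C j c b := by
  induction j generalizing b with
  | zero => simp [zp]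
  | succ j ih =>
    have h1 : zp C (i + (j + 1)) a b = ∑ d, zp C (i + j) a d * C d b := rfl
    have h2 : ∀ c, zp C (j + 1) c b = ∑ d, zp C j c d * C d b := fun c => rfl
    rw [h1]
    simp only [ih, h2, Finset.sum_mul, Finset.mul_sum]
    rw [Finset.sum_comm]
    refine Finset.sum_congr rfl fun c _ => Finset.sum_congr rfl fun d _ => ?_
    ring

/-- the sum over the sequences with given ends -/
theorem zp_path (C : E → E → ℝ) (m : ℕ) (F : E → E → ℝ) :
    ∑ e : Fin (m + 1) → E, (∏ j : Fin m, C (e j.castSucc) (e j.succ)) * F (e 0) (e (Fin.last m)) =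
      ∑ a, ∑ b, zp C m a b * F a b := by
  induction m generalizing F with
  | zero =>
    have h0 := (Equiv.funUnique (Fin 1) E).symm.sum_comp (fun e : Fin 1 → E =>
      (∏ j : Fin 0, C (e j.castSucc) (e j.succ)) * F (e 0) (e (Fin.last 0)))
    rw [← h0]
    refine Finset.sum_congr rfl fun a _ => ?_
    simp [zp, Equiv.funUnique]
  | succ m ih =>
    have h1 := (Fin.snocEquiv (fun _ : Fin (m + 2) => E)).sum_comp (fun e : Fin (m + 2) → E =>
      (∏ j : Fin (m + 1), C (e j.castSucc) (e j.succ)) * F (e 0) (e (Fin.last (m + 1))))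
    rw [← h1, Fintype.sum_prod_type]
    have h2 : ∀ x : E, (∑ e' : Fin (m + 1) → E,
        (∏ j : Fin (m + 1), C ((Fin.snocEquiv (fun _ : Fin (m + 2) => E)) (x, e') j.castSucc)
          ((Fin.snocEquiv (fun _ : Fin (m + 2) => E)) (x, e') j.succ)) *
          F ((Fin.snocEquiv (fun _ : Fin (m + 2) => E)) (x, e') 0)
            ((Fin.snocEquiv (fun _ : Fin (m + 2) => E)) (x, e') (Fin.last (m + 1)))) =
        ∑ a, ∑ b, zp C m a b * (C b x * F a x) := by
      intro x
      rw [← ih fun a b => C b x * F a x]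
      refine Finset.sum_congr rfl fun e' _ => ?_
      have e0 : (Fin.snocEquiv (fun _ : Fin (m + 2) => E)) (x, e') 0 = e' 0 := by
        show Fin.snoc (α := fun _ => E) e' x 0 = e' 0
        exact Fin.snoc_castSucc (α := fun _ => E) x e' 0
      have el : (Fin.snocEquiv (fun _ : Fin (m + 2) => E)) (x, e') (Fin.last (m + 1)) = x := by
        show Fin.snoc (α := fun _ => E) e' x (Fin.last (m + 1)) = x
        exact Fin.snoc_last _ _
      have ec : ∀ j : Fin (m + 1),
          (Fin.snocEquiv (fun _ : Fin (m + 2) => E)) (x, e') j.castSucc = e' j := fun j => by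
        show Fin.snoc (α := fun _ => E) e' x j.castSucc = e' j
        exact Fin.snoc_castSucc (α := fun _ => E) x e' j
      rw [e0, el, Fin.prod_univ_castSucc]
      have h3 : ∀ j : Fin m, (Fin.snocEquiv (fun _ : Fin (m + 2) => E)) (x, e') j.castSucc.succ =
          e' j.succ := fun j => by
        rw [← Fin.castSucc_succ, ec]
      have h4 : (Fin.snocEquiv (fun _ : Fin (m + 2) => E)) (x, e') (Fin.last m).succ = x := by
        rw [Fin.succ_last, el]
      simp only [ec, h3, h4]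
      ring
    rw [Finset.sum_congr rfl fun x _ => h2 x, Finset.sum_comm]
    refine Finset.sum_congr rfl fun a _ => Finset.sum_congr rfl fun x _ => ?_
    have h5 : zp C (m + 1) a x = ∑ b, zp C m a b * C b x := rfl
    rw [h5, Finset.sum_mul]
    exact Finset.sum_congr rfl fun b _ => by ring

end zp

section graph

variable {X : Type} [Fintype X]

open Classical in
theorem CG_ind (G : SimpleGraph X) (a b : X × X) : CG G a b =
    if (G.Adj a.1 a.2 ∧ G.Adj b.1 b.2) ∧ G.Adj a.1 b.1 ∧ G.Adj a.2 b.2 then 1 else 0 := by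
  unfold CG adj
  by_cases h1 : G.Adj a.1 a.2 <;> by_cases h2 : G.Adj b.1 b.2 <;> by_cases h3 : G.Adj a.1 b.1 <;>
    by_cases h4 : G.Adj a.2 b.2 <;> simp [h1, h2, h3, h4]

theorem CG_symm (G : SimpleGraph X) (a b : X × X) : CG G a b = CG G b a := by
  classical
  rw [CG_ind, CG_ind]
  have : ((G.Adj a.1 a.2 ∧ G.Adj b.1 b.2) ∧ G.Adj a.1 b.1 ∧ G.Adj a.2 b.2) ↔
      ((G.Adj b.1 b.2 ∧ G.Adj a.1 a.2) ∧ G.Adj b.1 a.1 ∧ G.Adj b.2 a.2) := by
    rw [G.adj_comm a.1 b.1, G.adj_comm a.2 b.2, and_comm (a := G.Adj a.1 a.2)]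
  simp only [this]

theorem rungless_adj {k : ℕ} {u v : ZMod k × Bool} : (rungless k).Adj u v ↔
    (moebiusLadder k).Adj u v ∧ ¬ (u.1 = 0 ∧ v.1 = 0) := by
  unfold rungless
  rw [SimpleGraph.deleteEdges_adj]
  obtain ⟨i, a⟩ := u
  obtain ⟨j, b⟩ := v
  refine and_congr_right fun h => not_congr ?_
  have hab : a ≠ b := h.1
  simp only [Set.mem_singleton_iff, Sym2.eq_iff, Prod.mk.injEq]
  cases a <;> cases b <;> simp_all

/-- homomorphisms from the rungless Moebius ladder -/
def homEquiv (G : SimpleGraph X) (k : ℕ) (hk : (1 : ZMod k) ≠ 0) :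
    (rungless k →g G) ≃ {w : ZMod k → X × X //
      (∀ i, i ≠ 0 → G.Adj (w i).1 (w i).2) ∧
      ∀ i, G.Adj (w i).1 (w (i + 1)).2 ∧ G.Adj (w (i + 1)).1 (w i).2} where
  toFun φ := ⟨fun i => (φ (i, false), φ (i, true)), fun i hi => φ.map_rel
      (rungless_adj.2 ⟨⟨by simp, Or.inl rfl⟩, fun h => hi h.1⟩),
    fun i => ⟨φ.map_rel (rungless_adj.2 ⟨⟨by simp, Or.inr (Or.inr rfl)⟩, fun h => hk (by
      obtain ⟨h1, h2⟩ := h
      simp only at h1 h2
      rw [h1, zero_add] at h2
      exact h2)⟩), φ.map_rel (rungless_adj.2 ⟨⟨by simp, Or.inr (Or.inl rfl)⟩, fun h => hk (by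
      obtain ⟨h1, h2⟩ := h
      simp only at h1 h2
      rw [h2, zero_add] at h1
      exact h1)⟩)⟩⟩
  invFun w := ⟨fun v => if v.2 then (w.1 v.1).2 else (w.1 v.1).1, by
    rintro ⟨i, a⟩ ⟨j, b⟩ hh
    obtain ⟨⟨hab, hij⟩, hn⟩ := rungless_adj.1 hh
    have hw := w.2
    simp only at hab hij hn
    have h0 : i = j → i ≠ 0 := by
      rintro rfl h
      exact hn ⟨h, h⟩
    cases a <;> cases b
    · exact absurd rfl hab
    · simp only [Bool.false_eq_true, if_false, if_true]
      rcases hij with h | h | h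
      · have := hw.1 i (h0 h)
        subst h
        exact this
      · subst h; exact (hw.2 j).2
      · subst h; exact (hw.2 i).1
    · simp only [Bool.false_eq_true, if_false, if_true]
      rcases hij with h | h | h
      · have := hw.1 i (h0 h)
        subst h
        exact this.symm
      · subst h; exact (hw.2 j).1.symm
      · subst h; exact (hw.2 i).2.symm
    · exact absurd rfl hab⟩
  left_inv φ := by
    ext ⟨i, a⟩
    cases a <;> rfl
  right_inv w := by
    apply Subtype.ext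
    rfl

/-- the twist of the rung `j` -/
def tws (X : Type) (j : ℕ) : (X × X) ≃ (X × X) :=
  if j % 2 = 0 then Equiv.refl _ else Equiv.prodComm X X

/-- the rungs of the ladder, along the strands -/
def big (X : Type) (m : ℕ) : (X × X) × (Fin (m + 1) → X × X) ≃ (Fin (m + 2) → X × X) :=
  (Equiv.prodCongr (Equiv.refl _) (Equiv.piCongrRight fun j : Fin (m + 1) => tws X j.val)).trans
    (Fin.consEquiv (fun _ : Fin (m + 2) => X × X))

theorem big_zero (m : ℕ) (x : (X × X) × (Fin (m + 1) → X × X)) : big X m x 0 = x.1 := rfl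

theorem big_succ (m : ℕ) (x : (X × X) × (Fin (m + 1) → X × X)) (j : Fin (m + 1)) :
    big X m x j.succ = tws X j.val (x.2 j) := rfl

theorem tws_rung (G : SimpleGraph X) (j : ℕ) (a : X × X) :
    G.Adj (tws X j a).1 (tws X j a).2 ↔ G.Adj a.1 a.2 := by
  unfold tws
  split_ifs
  · exact Iff.rfl
  · exact G.adj_comm _ _

theorem tws_step (G : SimpleGraph X) (j : ℕ) (a b : X × X) :
    (G.Adj (tws X j a).1 (tws X (j + 1) b).2 ∧ G.Adj (tws X (j + 1) b).1 (tws X j a).2) ↔
      (G.Adj a.1 b.1 ∧ G.Adj a.2 b.2) := by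
  unfold tws
  by_cases h : j % 2 = 0
  · have h' : ¬ (j + 1) % 2 = 0 := by omega
    rw [if_pos h, if_neg h']
    show (G.Adj a.1 b.1 ∧ G.Adj b.2 a.2) ↔ _
    rw [G.adj_comm b.2 a.2]
  · have h' : (j + 1) % 2 = 0 := by omega
    rw [if_neg h, if_pos h']
    show (G.Adj a.2 b.2 ∧ G.Adj b.1 a.1) ↔ _
    rw [G.adj_comm b.1 a.1, and_comm]

theorem big_iff (G : SimpleGraph X) (m : ℕ) (hm : m % 2 = 1)
    (x : (X × X) × (Fin (m + 1) → X × X)) :
    ((∀ i : Fin (m + 2), i ≠ 0 → G.Adj (big X m x i).1 (big X m x i).2) ∧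
      ∀ i : Fin (m + 2), G.Adj (big X m x i).1 (big X m x (i + 1)).2 ∧
        G.Adj (big X m x (i + 1)).1 (big X m x i).2) ↔
    (∀ j : Fin m, (G.Adj (x.2 j.castSucc).1 (x.2 j.castSucc).2 ∧
        G.Adj (x.2 j.succ).1 (x.2 j.succ).2) ∧
      G.Adj (x.2 j.castSucc).1 (x.2 j.succ).1 ∧ G.Adj (x.2 j.castSucc).2 (x.2 j.succ).2) ∧
    (G.Adj x.1.1 (x.2 0).2 ∧ G.Adj x.1.1 (x.2 (Fin.last m)).1) ∧
    (G.Adj x.1.2 (x.2 0).1 ∧ G.Adj x.1.2 (x.2 (Fin.last m)).2) := by
  have e1 : (∀ i : Fin (m + 2), i ≠ 0 → G.Adj (big X m x i).1 (big X m x i).2) ↔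
      ∀ j : Fin (m + 1), G.Adj (x.2 j).1 (x.2 j).2 := by
    rw [Fin.forall_fin_succ]
    simp only [ne_eq, not_true_eq_false, false_imp_iff, true_and]
    refine forall_congr' fun j => ?_
    rw [big_succ, tws_rung]
    exact ⟨fun h => h (Fin.succ_ne_zero j), fun h _ => h⟩
  have e2 : (∀ i : Fin (m + 2), G.Adj (big X m x i).1 (big X m x (i + 1)).2 ∧
        G.Adj (big X m x (i + 1)).1 (big X m x i).2) ↔
      (G.Adj x.1.1 (x.2 0).2 ∧ G.Adj (x.2 0).1 x.1.2) ∧
      (∀ j : Fin m, G.Adj (x.2 j.castSucc).1 (x.2 j.succ).1 ∧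
        G.Adj (x.2 j.castSucc).2 (x.2 j.succ).2) ∧
      (G.Adj (x.2 (Fin.last m)).2 x.1.2 ∧ G.Adj x.1.1 (x.2 (Fin.last m)).1) := by
    constructor
    · intro h
      refine ⟨?_, fun j => ?_, ?_⟩
      · exact h 0
      · have h1 := h j.succ.castSucc
        rw [Fin.coeSucc_eq_succ] at h1
        have h2 : (j.succ.castSucc : Fin (m + 2)) = j.castSucc.succ := (Fin.succ_castSucc j).symm
        rw [h2, big_succ, big_succ] at h1
        exact (tws_step G j.val _ _).1 h1
      · have h1 := h (Fin.last (m + 1))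
        rw [Fin.last_add_one, big_zero, ← Fin.succ_last, big_succ] at h1
        have h3 : tws X (Fin.last m).val = Equiv.prodComm X X := by
          unfold tws
          rw [if_neg]
          simp only [Fin.val_last]
          omega
        rw [h3] at h1
        exact ⟨h1.1, h1.2⟩
    · rintro ⟨ha, hb, hc⟩ i
      refine Fin.lastCases ?_ (fun i => ?_) i
      · rw [Fin.last_add_one, big_zero, ← Fin.succ_last, big_succ]
        have h3 : tws X (Fin.last m).val = Equiv.prodComm X X := by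
          unfold tws
          rw [if_neg]
          simp only [Fin.val_last]
          omega
        rw [h3]
        exact ⟨hc.1, hc.2⟩
      · rw [Fin.coeSucc_eq_succ]
        refine Fin.cases ?_ (fun j => ?_) i
        · exact ha
        · have h2 : (j.succ.castSucc : Fin (m + 2)) = j.castSucc.succ := (Fin.succ_castSucc j).symm
          rw [h2, big_succ, big_succ]
          exact (tws_step G j.val _ _).2 (hb j)
  rw [e1, e2]
  constructor
  · rintro ⟨h1, ⟨h2, h2'⟩, h3, h4, h4'⟩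
    exact ⟨fun j => ⟨⟨h1 _, h1 _⟩, h3 j⟩, ⟨h2, h4'⟩, h2'.symm, h4.symm⟩
  · rintro ⟨h1, ⟨h2, h3⟩, h4, h5⟩
    refine ⟨fun j => ?_, ⟨h2, h4.symm⟩, fun j => (h1 j).2, h5.symm, h3⟩
    obtain ⟨m, rfl⟩ : ∃ n, m = n + 1 := ⟨m - 1, by omega⟩
    refine Fin.cases ?_ (fun j => ?_) j
    · exact (h1 0).1.1
    · exact (h1 j).1.2

theorem zp_symm (G : SimpleGraph X) [DecidableEq X] (n : ℕ) (a b : X × X) :
    zp (CG G) n a b = zp (CG G) n b a := by
  induction n generalizing a b with
  | zero => simp only [zp, eq_comm]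
  | succ n ih =>
    have h1 := zp_add (CG G) 1 n b a
    have h2 : ∀ c, zp (CG G) 1 b c = CG G b c := by
      intro c
      show ∑ d, zp (CG G) 0 b d * CG G d c = _
      simp [zp]
    rw [add_comm] at h1
    rw [h1]
    show ∑ c, zp (CG G) n a c * CG G c b = _
    refine Finset.sum_congr rfl fun c _ => ?_
    rw [h2, ih a c, CG_symm G c b, mul_comm]

/-- the condition on the rungs `e 0, …, e m` and on the deleted rung `y` -/
def Ok (G : SimpleGraph X) (m : ℕ) (y : X × X) (e : Fin (m + 1) → X × X) : Prop :=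
  (∀ j : Fin m, (G.Adj (e j.castSucc).1 (e j.castSucc).2 ∧ G.Adj (e j.succ).1 (e j.succ).2) ∧
    G.Adj (e j.castSucc).1 (e j.succ).1 ∧ G.Adj (e j.castSucc).2 (e j.succ).2) ∧
  (G.Adj y.1 (e 0).2 ∧ G.Adj y.1 (e (Fin.last m)).1) ∧
  (G.Adj y.2 (e 0).1 ∧ G.Adj y.2 (e (Fin.last m)).2)

theorem ind5 (O A B1 B2 B3 B4 : Prop) [Decidable O] [Decidable A] [Decidable B1] [Decidable B2]
    [Decidable B3] [Decidable B4] (h : O ↔ A ∧ (B1 ∧ B2) ∧ (B3 ∧ B4)) :
    (if O then (1 : ℝ) else 0) = (if A then 1 else 0) *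
      ((if B1 then 1 else 0) * (if B2 then 1 else 0) *
        ((if B3 then 1 else 0) * (if B4 then 1 else 0))) := by
  by_cases a : A <;> by_cases b1 : B1 <;> by_cases b2 : B2 <;> by_cases b3 : B3 <;>
    by_cases b4 : B4 <;> simp [h, a, b1, b2, b3, b4]

open Classical in
theorem ok_ind (G : SimpleGraph X) (m : ℕ) (y : X × X) (e : Fin (m + 1) → X × X) :
    (if Ok G m y e then (1 : ℝ) else 0) = (∏ j : Fin m, CG G (e j.castSucc) (e j.succ)) *
      (adj G y.1 (e 0).2 * adj G y.1 (e (Fin.last m)).1 *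
        (adj G y.2 (e 0).1 * adj G y.2 (e (Fin.last m)).2)) := by
  have h1 : (∏ j : Fin m, CG G (e j.castSucc) (e j.succ)) =
      if (∀ j : Fin m, (G.Adj (e j.castSucc).1 (e j.castSucc).2 ∧
        G.Adj (e j.succ).1 (e j.succ).2) ∧ G.Adj (e j.castSucc).1 (e j.succ).1 ∧
        G.Adj (e j.castSucc).2 (e j.succ).2) then 1 else 0 := by
    by_cases h : (∀ j : Fin m, (G.Adj (e j.castSucc).1 (e j.castSucc).2 ∧
        G.Adj (e j.succ).1 (e j.succ).2) ∧ G.Adj (e j.castSucc).1 (e j.succ).1 ∧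
        G.Adj (e j.castSucc).2 (e j.succ).2)
    · rw [if_pos h]
      exact Finset.prod_eq_one fun j _ => by rw [CG_ind, if_pos (h j)]
    · rw [if_neg h]
      obtain ⟨j, hj⟩ := not_forall.1 h
      exact Finset.prod_eq_zero (Finset.mem_univ j) (by rw [CG_ind, if_neg hj])
  rw [h1]
  exact ind5 _ _ _ _ _ _ Iff.rfl

theorem card_fin (G : SimpleGraph X) (m : ℕ) :
    Nat.card (rungless (m + 2) →g G) =
      Nat.card {w : Fin (m + 2) → X × X // (∀ i, i ≠ 0 → G.Adj (w i).1 (w i).2) ∧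
        ∀ i, G.Adj (w i).1 (w (i + 1)).2 ∧ G.Adj (w (i + 1)).1 (w i).2} := by
  have hk : (1 : ZMod (m + 2)) ≠ 0 := by
    have : Fact (1 < m + 2) := ⟨by omega⟩
    exact one_ne_zero
  exact Nat.card_congr (homEquiv G (m + 2) hk)

theorem card_ok (G : SimpleGraph X) (m : ℕ) (hm : m % 2 = 1) :
    Nat.card (rungless (m + 2) →g G) =
      Nat.card {x : (X × X) × (Fin (m + 1) → X × X) // Ok G m x.1 x.2} := by
  rw [card_fin]
  exact (Nat.card_congr (Equiv.subtypeEquiv (big X m) (fun x => (big_iff G m hm x).symm))).symm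

open Classical in
theorem count (G : SimpleGraph X) (m : ℕ) (hm : m % 2 = 1) :
    (Nat.card (rungless (m + 2) →g G) : ℝ) =
      ∑ y : X × X, ∑ e : Fin (m + 1) → X × X,
        (∏ j : Fin m, CG G (e j.castSucc) (e j.succ)) *
          (adj G y.1 (e 0).2 * adj G y.1 (e (Fin.last m)).1 *
            (adj G y.2 (e 0).1 * adj G y.2 (e (Fin.last m)).2)) := by
  rw [card_ok G m hm, Nat.card_eq_fintype_card, Fintype.card_subtype, card_eq_sum_ones, sum_filter,
    Fintype.sum_prod_type]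
  push_cast
  exact sum_congr rfl fun y _ => sum_congr rfl fun e _ => ok_ind G m y e

/-- **the number of homomorphisms of the Moebius ladder minus a rung** -/
theorem graph : GraphStmt := by
  intro X _ _ _ G m hm
  have hn : (0 : ℝ) < Fintype.card X := by exact_mod_cast Fintype.card_pos
  have h1 : Nat.card (ZMod (m + 2) × Bool) = 2 * (m + 2) := by
    rw [Nat.card_prod, Nat.card_zmod, Nat.card_eq_fintype_card, Fintype.card_bool, mul_comm]
  unfold homDensity
  rw [h1, Nat.card_eq_fintype_card (α := X), div_mul_cancel₀ _ (by positivity),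
    count G m (Nat.odd_iff.1 hm), ← zp_path, Finset.sum_comm]
  refine Finset.sum_congr rfl fun e _ => ?_
  rw [← Finset.mul_sum]
  congr 1
  rw [Fintype.sum_prod_type]
  rfl

/-- the ladder cut at its centre -/
theorem nh_eq (G : SimpleGraph X) [DecidableEq X] (n : ℕ) :
    ∑ b, ∑ a, zp (CG G) (2 * n + 5) b a * cc (adj G) b a = nh (CG G) (adj G) n := by
  unfold nh
  have h1 : ∀ b a : X × X, zp (CG G) (2 * n + 5) b a =
      ∑ R, zp (CG G) (n + 1) R a * zp (CG G) (n + 4) R b := by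
    intro b a
    rw [show 2 * n + 5 = (n + 4) + (n + 1) by ring, zp_add]
    refine Finset.sum_congr rfl fun R _ => ?_
    rw [zp_symm G (n + 4) b R, mul_comm]
  simp only [h1, Finset.sum_mul]
  rw [Finset.sum_comm]
  rw [Finset.sum_congr rfl fun a _ => Finset.sum_comm]
  rw [Finset.sum_comm]

end graph

end Vale.Agent.P050.H222
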