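import Vale.Agent.P050.H222.G
import Vale.Agent.P050.H546.GSpec

/-!
P050: the Moebius ladder minus `t` consecutive rungs: number of homomorphisms (helper222).
-/

set_option linter.unusedSectionVars false

namespace Vale.Agent.P050.H222

open Finset Vale.Agent.P050.H148 Vale.Agent.P050.M18 Vale.Agent.P050.H546

section zpn

variable {E : Type} [Fintype E] [DecidableEq E]

/-- products of kernels -/
def zpn (K : ℕ → E → E → ℝ) : ℕ → E → E → ℝ
  | 0 => fun a b => if a = b then 1 else 0
  | n + 1 => fun a b => ∑ c, zpn K n a c * K n c b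

/-- the sum over the sequences with given ends -/
theorem zpn_path (K : ℕ → E → E → ℝ) (m : ℕ) (F : E → E → ℝ) :
    ∑ e : Fin (m + 1) → E, (∏ j : Fin m, K j.val (e j.castSucc) (e j.succ)) *
      F (e 0) (e (Fin.last m)) = ∑ a, ∑ b, zpn K m a b * F a b := by
  induction m generalizing F with
  | zero =>
    have h0 := (Equiv.funUnique (Fin 1) E).symm.sum_comp (fun e : Fin 1 → E =>
      (∏ j : Fin 0, K j.val (e j.castSucc) (e j.succ)) * F (e 0) (e (Fin.last 0)))
    rw [← h0]
    refine Finset.sum_congr rfl fun a _ => ?_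
    simp [zpn, Equiv.funUnique]
  | succ m ih =>
    have h1 := (Fin.snocEquiv (fun _ : Fin (m + 2) => E)).sum_comp (fun e : Fin (m + 2) → E =>
      (∏ j : Fin (m + 1), K j.val (e j.castSucc) (e j.succ)) * F (e 0) (e (Fin.last (m + 1))))
    rw [← h1, Fintype.sum_prod_type]
    have h2 : ∀ x : E, (∑ e' : Fin (m + 1) → E,
        (∏ j : Fin (m + 1), K j.val ((Fin.snocEquiv (fun _ : Fin (m + 2) => E)) (x, e') j.castSucc)
          ((Fin.snocEquiv (fun _ : Fin (m + 2) => E)) (x, e') j.succ)) *
          F ((Fin.snocEquiv (fun _ : Fin (m + 2) => E)) (x, e') 0)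
            ((Fin.snocEquiv (fun _ : Fin (m + 2) => E)) (x, e') (Fin.last (m + 1)))) =
        ∑ a, ∑ b, zpn K m a b * (K m b x * F a x) := by
      intro x
      rw [← ih fun a b => K m b x * F a x]
      refine Finset.sum_congr rfl fun e' _ => ?_
      have e0 : (Fin.snocEquiv (fun _ : Fin (m + 2) => E)) (x, e') 0 = e' 0 := by
        show Fin.snoc (α := fun _ => E) e' x 0 = e' 0
        exact Fin.snoc_castSucc (α := fun _ => E) x e' 0
      have el : (Fin.snocEquiv (fun _ : Fin (m + 2) => E)) (x, e') (Fin.last (m + 1)) = x := by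
        show Fin.snoc (α := fun _ => E) e' x (Fin.last (m + 1)) = x
        exact Fin.snoc_last _ _
      have ec : ∀ j : Fin (m + 1),
          (Fin.snocEquiv (fun _ : Fin (m + 2) => E)) (x, e') j.castSucc = e' j := fun j => by
        show Fin.snoc (α := fun _ => E) e' x j.castSucc = e' j
        exact Fin.snoc_castSucc (α := fun _ => E) x e' j
      rw [e0, el, Fin.prod_univ_castSucc]
      have h3 : ∀ j : Fin m, (Fin.snocEquiv (fun _ : Fin (m + 2) => E)) (x, e') j.castSucc.succ =
          e' j.succ := fun j => by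
        rw [← Fin.castSucc_succ, ec]
      have h4 : (Fin.snocEquiv (fun _ : Fin (m + 2) => E)) (x, e') (Fin.last m).succ = x := by
        rw [Fin.succ_last, el]
      simp only [ec, h3, h4, Fin.val_last, Fin.val_castSucc]
      ring
    rw [Finset.sum_congr rfl fun x _ => h2 x, Finset.sum_comm]
    refine Finset.sum_congr rfl fun a _ => Finset.sum_congr rfl fun x _ => ?_
    have h5 : zpn K (m + 1) a x = ∑ b, zpn K m a b * K m b x := rfl
    rw [h5, Finset.sum_mul]
    exact Finset.sum_congr rfl fun b _ => by ring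

/-- first a kernel `C`, then a kernel `D` -/
theorem zpn_two (C D : E → E → ℝ) (m t : ℕ) (a b : E) :
    zpn (fun j => if j < m then C else D) (m + t) a b = ∑ c, zp C m a c * zp D t c b := by
  have h0 : ∀ n, n ≤ m → ∀ a b, zpn (fun j => if j < m then C else D) n a b = zp C n a b := by
    intro n
    induction n with
    | zero => intro _ a b; rfl
    | succ n ih =>
      intro hn a b
      show ∑ c, zpn (fun j => if j < m then C else D) n a c *
        (if n < m then C else D) c b = ∑ c, zp C n a c * C c b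
      rw [if_pos (by omega)]
      exact Finset.sum_congr rfl fun c _ => by rw [ih (by omega)]
  induction t generalizing b with
  | zero =>
    rw [Nat.add_zero, h0 m le_rfl]
    simp [zp]
  | succ t ih =>
    show ∑ c, zpn (fun j => if j < m then C else D) (m + t) a c *
      (if m + t < m then C else D) c b = _
    rw [if_neg (by omega)]
    have h2 : ∀ c, zp D (t + 1) c b = ∑ d, zp D t c d * D d b := fun c => rfl
    simp only [ih, h2, Finset.sum_mul, Finset.mul_sum]
    rw [Finset.sum_comm]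
    refine Finset.sum_congr rfl fun c _ => Finset.sum_congr rfl fun d _ => ?_
    ring

end zpn

section graph

variable {X : Type} [Fintype X]

/-- a step without rungs -/
noncomputable def DD (G : SimpleGraph X) (x y : X × X) : ℝ := adj G x.1 y.1 * adj G x.2 y.2

theorem zp_DD [DecidableEq X] (G : SimpleGraph X) (j : ℕ) (x y : X × X) :
    zp (DD G) j x y = zp (adj G) j x.1 y.1 * zp (adj G) j x.2 y.2 := by
  induction j generalizing y with
  | zero =>
    show (if x = y then (1 : ℝ) else 0) = (if x.1 = y.1 then 1 else 0) * (if x.2 = y.2 then 1 else 0)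
    by_cases h1 : x.1 = y.1 <;> by_cases h2 : x.2 = y.2 <;> simp [Prod.ext_iff, h1, h2]
  | succ j ih =>
    show ∑ c, zp (DD G) j x c * DD G c y = (∑ c, zp (adj G) j x.1 c * adj G c y.1) *
      (∑ c, zp (adj G) j x.2 c * adj G c y.2)
    rw [Finset.sum_mul_sum, Fintype.sum_prod_type]
    refine Finset.sum_congr rfl fun c _ => Finset.sum_congr rfl fun d _ => ?_
    rw [ih]
    unfold DD
    ring

theorem zp_adj_symm [DecidableEq X] (G : SimpleGraph X) (n : ℕ) (a b : X) :
    zp (adj G) n a b = zp (adj G) n b a := by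
  induction n generalizing a b with
  | zero => simp only [zp, eq_comm]
  | succ n ih =>
    have h1 := zp_add (adj G) 1 n b a
    have h2 : ∀ c, zp (adj G) 1 b c = adj G b c := by
      intro c
      show ∑ d, zp (adj G) 0 b d * adj G d c = _
      simp [zp]
    rw [add_comm] at h1
    rw [h1]
    show ∑ c, zp (adj G) n a c * adj G c b = _
    refine Finset.sum_congr rfl fun c _ => ?_
    rw [h2, ih a c, M18.adj_symm G c b, mul_comm]

theorem cut_adj {k t : ℕ} {u v : ZMod k × Bool} : (cutLadder k t).Adj u v ↔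
    (moebiusLadder k).Adj u v ∧ ¬ ∃ i : ℕ, i < t ∧ u.1 = i ∧ v.1 = i := by
  unfold cutLadder
  rw [SimpleGraph.deleteEdges_adj]
  obtain ⟨i, a⟩ := u
  obtain ⟨j, b⟩ := v
  refine and_congr_right fun h => not_congr ?_
  have hab : a ≠ b := h.1
  simp only [Set.mem_ofPred_eq, Sym2.eq_iff, Prod.mk.injEq]
  cases a <;> cases b <;> simp_all

/-- homomorphisms from the Moebius ladder without `t` rungs -/
def cutEquiv (G : SimpleGraph X) (k t : ℕ) (hk : (1 : ZMod k) ≠ 0) :
    (cutLadder k t →g G) ≃ {w : ZMod k → X × X //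
      (∀ i : ZMod k, (∀ j : ℕ, j < t → i ≠ (j : ZMod k)) → G.Adj (w i).1 (w i).2) ∧
      ∀ i : ZMod k, G.Adj (w i).1 (w (i + 1)).2 ∧ G.Adj (w (i + 1)).1 (w i).2} where
  toFun φ := ⟨fun i => (φ (i, false), φ (i, true)), fun i hi => φ.map_rel
      (cut_adj.2 ⟨⟨by simp, Or.inl rfl⟩, fun ⟨j, hj, h, _⟩ => hi j hj h⟩),
    fun i => ⟨φ.map_rel (cut_adj.2 ⟨⟨by simp, Or.inr (Or.inr rfl)⟩, fun ⟨j, _, h1, h2⟩ => hk (by
      simp only at h1 h2
      rw [h1] at h2
      exact add_eq_left.1 h2)⟩), φ.map_rel (cut_adj.2 ⟨⟨by simp, Or.inr (Or.inl rfl)⟩,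
      fun ⟨j, _, h1, h2⟩ => hk (by
      simp only at h1 h2
      rw [h2] at h1
      exact add_eq_left.1 h1)⟩)⟩⟩
  invFun w := ⟨fun v => if v.2 then (w.1 v.1).2 else (w.1 v.1).1, by
    rintro ⟨i, a⟩ ⟨j, b⟩ hh
    obtain ⟨⟨hab, hij⟩, hn⟩ := cut_adj.1 hh
    have hw := w.2
    simp only at hab hij hn
    have h0 : i = j → ∀ l : ℕ, l < t → i ≠ l := by
      rintro rfl l hl h
      exact hn ⟨l, hl, h, h⟩
    cases a <;> cases b
    · exact absurd rfl hab
    · simp only [Bool.false_eq_true, if_false, if_true]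
      rcases hij with h | h | h
      · have := hw.1 i (h0 h)
        subst h
        exact this
      · subst h; exact (hw.2 j).2
      · subst h; exact (hw.2 i).1
    · simp only [Bool.false_eq_true, if_false, if_true]
      rcases hij with h | h | h
      · have := hw.1 i (h0 h)
        subst h
        exact this.symm
      · subst h; exact (hw.2 j).1.symm
      · subst h; exact (hw.2 i).2.symm
    · exact absurd rfl hab⟩
  left_inv φ := by
    ext ⟨i, a⟩
    cases a <;> rfl
  right_inv w := by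
    apply Subtype.ext
    rfl

/-- the position of the deleted rungs after a shift -/
theorem pos_iff {N m t : ℕ} (hN : N = m + t) (i : ZMod (N + 1)) :
    (∀ j : ℕ, j < t → i + (t : ZMod (N + 1)) ≠ (j : ZMod (N + 1))) ↔ i.val ≤ m := by
  have hi : ((i.val : ℕ) : ZMod (N + 1)) = i := ZMod.natCast_zmod_val (n := N + 1) i
  have hlt : i.val < N + 1 := ZMod.val_lt i
  constructor
  · intro h
    by_contra hm
    have h1 : m + 1 ≤ i.val := by omega
    have h2 : i.val - (m + 1) < t := by omega
    refine h _ h2 ?_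
    have h3 : i.val + t = (i.val - (m + 1)) + (N + 1) := by omega
    calc i + (t : ZMod (N + 1)) = ((i.val + t : ℕ) : ZMod (N + 1)) := by
          rw [Nat.cast_add, hi]
      _ = ((i.val - (m + 1) : ℕ) : ZMod (N + 1)) := by
          rw [h3, Nat.cast_add, ZMod.natCast_self, add_zero]
  · intro h j hj he
    have h1 : ((i.val + t : ℕ) : ZMod (N + 1)) = (j : ZMod (N + 1)) := by
      rw [Nat.cast_add, hi]
      exact he
    rw [ZMod.natCast_eq_natCast_iff'] at h1
    rw [Nat.mod_eq_of_lt (by omega), Nat.mod_eq_of_lt (by omega)] at h1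
    omega

/-- the condition on the untwisted rungs -/
def Ok2 (G : SimpleGraph X) (N m : ℕ) (e : Fin (N + 1) → X × X) : Prop :=
  (∀ i : Fin (N + 1), i.val ≤ m → G.Adj (e i).1 (e i).2) ∧
  (∀ j : Fin N, G.Adj (e j.castSucc).1 (e j.succ).1 ∧ G.Adj (e j.castSucc).2 (e j.succ).2) ∧
  (G.Adj (e (Fin.last N)).1 (e 0).2 ∧ G.Adj (e (Fin.last N)).2 (e 0).1)

/-- untwisting -/
def unt (X : Type) (N : ℕ) : (Fin (N + 1) → X × X) ≃ (Fin (N + 1) → X × X) :=
  Equiv.piCongrRight fun j : Fin (N + 1) => tws X j.val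

theorem unt_iff (G : SimpleGraph X) (N m : ℕ) (hN : N % 2 = 0) (e : Fin (N + 1) → X × X) :
    ((∀ i : Fin (N + 1), i.val ≤ m → G.Adj (unt X N e i).1 (unt X N e i).2) ∧
      ∀ i : Fin (N + 1), G.Adj (unt X N e i).1 (unt X N e (i + 1)).2 ∧
        G.Adj (unt X N e (i + 1)).1 (unt X N e i).2) ↔ Ok2 G N m e := by
  have hu : ∀ i, unt X N e i = tws X i.val (e i) := fun i => rfl
  unfold Ok2
  refine and_congr ?_ ?_
  · refine forall_congr' fun i => ?_
    rw [hu, tws_rung]
  · have h0 : tws X (0 : Fin (N + 1)).val = Equiv.refl _ := by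
      unfold tws
      rw [if_pos]
      simp
    have hl : tws X (Fin.last N).val = Equiv.refl _ := by
      unfold tws
      rw [if_pos]
      simpa using hN
    constructor
    · intro h
      refine ⟨fun j => ?_, ?_⟩
      · have h1 := h j.castSucc
        rw [Fin.coeSucc_eq_succ, hu, hu] at h1
        exact (tws_step G j.val _ _).1 h1
      · have h1 := h (Fin.last N)
        rw [Fin.last_add_one, hu, hu, h0, hl] at h1
        exact ⟨h1.1, h1.2.symm⟩
    · rintro ⟨ha, hb⟩ i
      refine Fin.lastCases ?_ (fun j => ?_) i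
      · rw [Fin.last_add_one, hu, hu, h0, hl]
        exact ⟨hb.1, hb.2.symm⟩
      · rw [Fin.coeSucc_eq_succ, hu, hu]
        exact (tws_step G j.val _ _).2 (ha j)

open Classical in
theorem DD_ind (G : SimpleGraph X) (a b : X × X) : DD G a b =
    if G.Adj a.1 b.1 ∧ G.Adj a.2 b.2 then 1 else 0 := by
  unfold DD adj
  by_cases h1 : G.Adj a.1 b.1 <;> by_cases h2 : G.Adj a.2 b.2 <;> simp [h1, h2]

open Classical in
theorem ok2_ind (G : SimpleGraph X) (N m : ℕ) (hm : 1 ≤ m) (hmN : m ≤ N)
    (e : Fin (N + 1) → X × X) :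
    (if Ok2 G N m e then (1 : ℝ) else 0) =
      (∏ j : Fin N, (if j.val < m then CG G else DD G) (e j.castSucc) (e j.succ)) *
        DD G (e (Fin.last N)) (e 0).swap := by
  have h2 : DD G (e (Fin.last N)) (e 0).swap =
      if G.Adj (e (Fin.last N)).1 (e 0).2 ∧ G.Adj (e (Fin.last N)).2 (e 0).1 then 1 else 0 :=
    DD_ind G _ _
  by_cases h : (∀ i : Fin (N + 1), i.val ≤ m → G.Adj (e i).1 (e i).2) ∧
      (∀ j : Fin N, G.Adj (e j.castSucc).1 (e j.succ).1 ∧ G.Adj (e j.castSucc).2 (e j.succ).2)
  · have h1 : ∏ j : Fin N, (if j.val < m then CG G else DD G) (e j.castSucc) (e j.succ) = 1 := by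
      refine Finset.prod_eq_one fun j _ => ?_
      split_ifs with hj
      · rw [CG_ind, if_pos ⟨⟨h.1 _ (by rw [Fin.val_castSucc]; omega),
          h.1 _ (by rw [Fin.val_succ]; omega)⟩, h.2 j⟩]
      · rw [DD_ind, if_pos (h.2 j)]
    rw [h1, one_mul, h2]
    by_cases hc : G.Adj (e (Fin.last N)).1 (e 0).2 ∧ G.Adj (e (Fin.last N)).2 (e 0).1
    · rw [if_pos hc, if_pos (show Ok2 G N m e from ⟨h.1, h.2, hc⟩)]
    · rw [if_neg hc, if_neg (fun hok : Ok2 G N m e => hc hok.2.2)]
  · have h1 : ∏ j : Fin N, (if j.val < m then CG G else DD G) (e j.castSucc) (e j.succ) = 0 := by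
      by_contra hne
      refine h ?_
      have h3 : ∀ j : Fin N, (if j.val < m then CG G else DD G) (e j.castSucc) (e j.succ) ≠ 0 :=
        fun j => Finset.prod_ne_zero_iff.1 hne j (Finset.mem_univ j)
      have h4 : ∀ j : Fin N, j.val < m → (G.Adj (e j.castSucc).1 (e j.castSucc).2 ∧
          G.Adj (e j.succ).1 (e j.succ).2) ∧ G.Adj (e j.castSucc).1 (e j.succ).1 ∧
          G.Adj (e j.castSucc).2 (e j.succ).2 := by
        intro j hj
        have h5 := h3 j
        rw [if_pos hj, CG_ind] at h5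
        by_contra hc
        rw [if_neg hc] at h5
        exact h5 rfl
      refine ⟨fun i hi => ?_, fun j => ?_⟩
      · refine Fin.cases (fun _ => ?_) (fun j hj => ?_) i hi
        · have h6 := (h4 ⟨0, by omega⟩ (by show 0 < m; omega)).1.1
          exact h6
        · have h6 : j.val < m := by
            rw [Fin.val_succ] at hj
            omega
          exact (h4 j h6).1.2
      · by_cases hj : j.val < m
        · exact (h4 j hj).2
        · have h5 := h3 j
          rw [if_neg hj, DD_ind] at h5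
          by_contra hc
          rw [if_neg hc] at h5
          exact h5 rfl
    rw [h1, zero_mul, if_neg]
    intro hok
    exact h ⟨hok.1, hok.2.1⟩

theorem card_cut (G : SimpleGraph X) (N m t : ℕ) (hN : N = m + t) (hm : 1 ≤ m) :
    Nat.card (cutLadder (N + 1) t →g G) =
      Nat.card {w : Fin (N + 1) → X × X // (∀ i : Fin (N + 1), i.val ≤ m → G.Adj (w i).1 (w i).2) ∧
        ∀ i : Fin (N + 1), G.Adj (w i).1 (w (i + 1)).2 ∧ G.Adj (w (i + 1)).1 (w i).2} := by
  have hk : (1 : ZMod (N + 1)) ≠ 0 := by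
    have : Fact (1 < N + 1) := ⟨by omega⟩
    exact one_ne_zero
  rw [Nat.card_congr (cutEquiv G (N + 1) t hk)]
  have h1 : ∀ w : ZMod (N + 1) → X × X,
      ((∀ i : ZMod (N + 1), (∀ j : ℕ, j < t → i ≠ (j : ZMod (N + 1))) → G.Adj (w i).1 (w i).2) ∧
      ∀ i : ZMod (N + 1), G.Adj (w i).1 (w (i + 1)).2 ∧ G.Adj (w (i + 1)).1 (w i).2) ↔
      ((∀ i : ZMod (N + 1), i.val ≤ m → G.Adj (w (i + t)).1 (w (i + t)).2) ∧
      ∀ i : ZMod (N + 1), G.Adj (w (i + t)).1 (w (i + 1 + t)).2 ∧
        G.Adj (w (i + 1 + t)).1 (w (i + t)).2) := by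
    intro w
    refine and_congr ?_ ?_
    · constructor
      · intro h i hi
        exact h _ ((pos_iff hN i).2 hi)
      · intro h i hi
        have h2 := h (i - t) ((pos_iff hN _).1 (by rw [sub_add_cancel]; exact hi))
        rwa [sub_add_cancel] at h2
    · constructor
      · intro h i
        have h2 := h (i + t)
        rwa [show i + (t : ZMod (N + 1)) + 1 = i + 1 + t by ring] at h2
      · intro h i
        have h2 := h (i - t)
        rwa [sub_add_cancel, show i - (t : ZMod (N + 1)) + 1 + t = i + 1 by ring] at h2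
  exact Nat.card_congr (Equiv.subtypeEquiv
    (Equiv.arrowCongr (Equiv.addRight (t : ZMod (N + 1))).symm (Equiv.refl (X × X))) (fun w => h1 w))

theorem card_ok2 (G : SimpleGraph X) (N m t : ℕ) (hN : N = m + t) (hm : 1 ≤ m) (h2 : N % 2 = 0) :
    Nat.card (cutLadder (N + 1) t →g G) =
      Nat.card {e : Fin (N + 1) → X × X // Ok2 G N m e} := by
  rw [card_cut G N m t hN hm]
  exact (Nat.card_congr (Equiv.subtypeEquiv (unt X N) (fun e => (unt_iff G N m h2 e).symm))).symm

open Classical in
theorem count2 (G : SimpleGraph X) (N m t : ℕ) (hN : N = m + t) (hm : 1 ≤ m) (h2 : N % 2 = 0) :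
    (Nat.card (cutLadder (N + 1) t →g G) : ℝ) =
      ∑ e : Fin (N + 1) → X × X,
        (∏ j : Fin N, (if j.val < m then CG G else DD G) (e j.castSucc) (e j.succ)) *
          DD G (e (Fin.last N)) (e 0).swap := by
  rw [card_ok2 G N m t hN hm h2, Nat.card_eq_fintype_card, Fintype.card_subtype, card_eq_sum_ones,
    sum_filter]
  push_cast
  exact sum_congr rfl fun e _ => ok2_ind G N m hm (by omega) e

theorem cut_num [DecidableEq X] [Nonempty X] (G : SimpleGraph X) (N m t : ℕ) (hN : N = m + t)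
    (hm : 1 ≤ m) (h2 : N % 2 = 0) :
    homDensity (cutLadder (N + 1) t) G * (Fintype.card X : ℝ) ^ (2 * (N + 1)) =
      ∑ b, ∑ a, zp (CG G) m b a * cj (adj G) (t + 1) b a := by
  have hn : (0 : ℝ) < Fintype.card X := by exact_mod_cast Fintype.card_pos
  have h1 : Nat.card (ZMod (N + 1) × Bool) = 2 * (N + 1) := by
    rw [Nat.card_prod, Nat.card_zmod, Nat.card_eq_fintype_card, Fintype.card_bool, mul_comm]
  unfold homDensity
  rw [h1, Nat.card_eq_fintype_card (α := X), div_mul_cancel₀ _ (by positivity),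
    count2 G N m t hN hm h2]
  have h3 := zpn_path (fun j => if j < m then CG G else DD G) N
    (fun b c => DD G c b.swap)
  refine h3.trans ?_
  refine Finset.sum_congr rfl fun b _ => ?_
  subst hN
  simp only [zpn_two, Finset.sum_mul]
  rw [Finset.sum_comm]
  refine Finset.sum_congr rfl fun a _ => ?_
  have h4 : zp (DD G) (t + 1) a b.swap = ∑ c, zp (DD G) t a c * DD G c b.swap := rfl
  have h5 : cj (adj G) (t + 1) b a = zp (DD G) (t + 1) a b.swap := by
    rw [zp_DD]
    unfold cj
    rw [zp_adj_symm G (t + 1) b.2 a.1, zp_adj_symm G (t + 1) b.1 a.2]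
    rfl
  rw [h5, h4, Finset.mul_sum]
  exact Finset.sum_congr rfl fun c _ => by ring

end graph

/-- **the graph side** -/
theorem ggraph : GGraphStmt := by
  intro X _ _ _ G m t hm ht hodd
  rw [show m + 1 + t = (m + t) + 1 by ring] at hodd ⊢
  refine cut_num G (m + t) m t rfl hm ?_
  have := Nat.odd_iff.1 hodd
  omega

/-- the ladder cut at its centre -/
theorem nL_eq {X : Type} [Fintype X] [DecidableEq X] (G : SimpleGraph X) (n L : ℕ) :
    ∑ b, ∑ a, zp (CG G) (2 * n + L + 2) b a * cj (adj G) (L - 1) b a =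
      nL (CG G) (adj G) n L := by
  unfold nL
  have h1 : ∀ b a : X × X, zp (CG G) (2 * n + L + 2) b a =
      ∑ R, zp (CG G) (n + 1) R a * zp (CG G) (n + L + 1) R b := by
    intro b a
    rw [show 2 * n + L + 2 = (n + L + 1) + (n + 1) by ring, zp_add]
    refine Finset.sum_congr rfl fun R _ => ?_
    rw [zp_symm G (n + L + 1) b R, mul_comm]
  simp only [h1, Finset.sum_mul]
  rw [Finset.sum_comm]
  rw [Finset.sum_congr rfl fun a _ => Finset.sum_comm]
  rw [Finset.sum_comm]

end Vale.Agent.P050.H222
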