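import Vale.Agent.P050.H222.F
import Vale.Agent.P050.H546.Spec2

/-!
P050: the Moebius ladder minus a rung: from the three lemmas to the entropy side (helper222).
-/

set_option linter.unusedSectionVars false

namespace Vale.Agent.P050.H222

open Finset Vale.Agent.P050.Cart Vale.Agent.P050.Join Vale.Agent.P050.H148 Vale.Agent.P050.H180
open Vale.Agent.P050.M18 Vale.Agent.P050.H546

section

variable {U : Type} [Fintype U] [DecidableEq U] {Q : U × U → ℝ} (hE : Edge Q)

include hE

theorem ent_mm {Ω : Type} [Fintype Ω] (P : Ω → ℝ) (f : Ω → U) (h : mar P f = mm Q) :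
    ent P f = aQ Q := by
  unfold aQ
  refine ent_law fun a => ?_
  rw [h, mar_id]

theorem hB_le (n : ℕ) : hB Q n ≤ hQ Q + aQ Q := by
  have hl := PP_lab hE n
  have h1 := suba hl.nn (hl.tot hE) (A := fun x => x.1) (B := fun x => x.2.2)
    (C := fun x => (x.1, x.2.2)) (fun x y => by
      simp only [Prod.mk.injEq]
      tauto)
  have h2 : ent (PP Q n) (fun x => x.2.2) = aQ Q := by
    rw [← hE.ent_snd]
    exact hl.ent_edge hE fun e => e.2
  rw [PP_label hE, h2] at h1
  exact h1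

theorem h3_le : h3Q Q ≤ 2 * aQ Q := by
  have h1 := suba (W3_nn hE) (W3_tot hE) (A := fun x => x.1.1.1) (B := fun x => x.2)
    (C := fun x => (x.1.1.1, x.2)) (fun x y => by
      simp only [Prod.mk.injEq]
      tauto)
  rw [ent_mm hE _ _ (W3_0 hE), ent_mm hE _ _ (W3_3 hE)] at h1
  have h2 : ent (W3 Q) (fun x => (x.1.1.1, x.2)) = h3Q Q := rfl
  linarith

end

/-- **the entropy side, from the three lemmas** -/
theorem entropy (hb : BaseStmt) (hm : MidStmt) (hc : CloseStmt) : EntStmt := by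
  intro U _ _ C A Q hE hC hA0 hA1 n hn
  obtain ⟨Ω, _, P, R, a, b, h1⟩ := hb U Q hE n
  have h2 := hm U Ω Q P R a b n hE h1
  obtain ⟨h3, h4⟩ := hc U _ C A Q _ _ _ _ _ _ n hE hC hA0 hA1 h2
  refine ⟨h3, le_trans ?_ h4⟩
  have e3 : gQ Q = 3 * hQ Q - 2 * aQ Q - h2Q Q := rfl
  have h5 := hB_ge hE n hn
  have h6 := hB_le hE (n + 3)
  have h7 := h3_le hE
  have h8 := r_nonneg hE
  have h9 : (0 : ℝ) ≤ (2 * n - 2) * (2 * aQ Q - h2Q Q) := by
    have : (2 : ℝ) ≤ n := by exact_mod_cast hn
    exact mul_nonneg (by linarith) h8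
  rw [e3]
  nlinarith [h5, h6, h7, h9]

/-- **the theorem, from the three lemmas** -/
theorem main (hb : BaseStmt) (hm : MidStmt) (hc : CloseStmt) : FinalStmt :=
  final (entropy hb hm hc)

end Vale.Agent.P050.H222
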